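import Mathlib

set_option linter.unusedVariables false

namespace Vale.Agent.P048

def AW (A1 A2 A3 A4 B1 B2 B3 B4 g f0 fr s d : ℕ) : Prop :=
  ∃ p1 p2 p3 p4 q1 q2 q3 q4 : ℕ, p1 ≤ A1 ∧ p2 ≤ A2 ∧ p3 ≤ A3 ∧ p4 ≤ A4 ∧
    q1 ≤ B1 ∧ q2 ≤ B2 ∧ q3 ≤ B3 ∧ q4 ≤ B4 ∧
    ((p1 + q1 + 2 * (p2 + q2) + 3 * (p3 + q3) + 4 * (p4 + q4) + 1 ≤ d ∧
      d ≤ p1 + q1 + 2 * (p2 + q2) + 3 * (p3 + q3) + 4 * (p4 + q4) + g + 1 + f0 +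
        (p1 + p2 + p3 + p4)) ∨
    (d = p1 + q1 + 2 * (p2 + q2) + 3 * (p3 + q3) + 4 * (p4 + q4) ∧
      2 ≤ p1 + p2 + p3 + p4 + q1 + q2 + q3 + q4 + s) ∨
    (d = p1 + q1 + 2 * (p2 + q2) + 3 * (p3 + q3) + 4 * (p4 + q4) ∧
      1 ≤ p1 + p2 + p3 + p4 + q1 + q2 + q3 + q4 + s ∧ fr < p1 + p2 + p3 + p4))

lemma aw2 (A1 A2 A3 A4 A5 B1 B2 B3 B4 B5 g f0 fr s cs ls t : ℕ)
    (h1 : t = 2 * (A1 + A2 + A3 + A4 + A5) + (B1 + B2 + B3 + B4 + B5) + s + cs + f0 + fr)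
    (h2 : A1 + B1 + 2 * (A2 + B2) + 3 * (A3 + B3) + 4 * (A4 + B4) + 5 * (A5 + B5) + ls + g ≤ t)
    (h3 : 10 ≤ t) (h4 : cs ≤ s) (h5 : s ≤ ls) (h6 : s + fr ≤ 2)
    (h7 : 1 ≤ s ∨ fr = 0 ∨ 1 ≤ g ∨ 3 ≤ f0 + fr ∨ 1 ≤ A1 + B1) :
    AW A1 A2 A3 A4 B1 B2 B3 B4 g f0 fr s 2 := by
  by_cases h : 1 ≤ g + f0
  · exact ⟨0, 0, 0, 0, 0, 0, 0, 0, by omega⟩
  by_cases h : 1 ≤ A1
  · exact ⟨1, 0, 0, 0, 0, 0, 0, 0, by omega⟩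
  by_cases h : 1 ≤ B1
  · exact ⟨0, 0, 0, 0, 1, 0, 0, 0, by omega⟩
  by_cases h : 1 ≤ s
  · by_cases h : 1 ≤ A2
    · exact ⟨0, 1, 0, 0, 0, 0, 0, 0, by omega⟩
    omega
  by_cases h : 1 ≤ A2
  · by_cases h : fr ≤ 0
    · exact ⟨0, 1, 0, 0, 0, 0, 0, 0, by omega⟩
    omega
  omega

lemma aw3 (A1 A2 A3 A4 A5 B1 B2 B3 B4 B5 g f0 fr s cs ls t : ℕ)
    (h1 : t = 2 * (A1 + A2 + A3 + A4 + A5) + (B1 + B2 + B3 + B4 + B5) + s + cs + f0 + fr)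
    (h2 : A1 + B1 + 2 * (A2 + B2) + 3 * (A3 + B3) + 4 * (A4 + B4) + 5 * (A5 + B5) + ls + g ≤ t)
    (h3 : 10 ≤ t) (h4 : cs ≤ s) (h5 : s ≤ ls) (h6 : s + fr ≤ 2)
    (h7 : 1 ≤ s ∨ fr = 0 ∨ 1 ≤ g ∨ 3 ≤ f0 + fr ∨ 1 ≤ A1 + B1) :
    AW A1 A2 A3 A4 B1 B2 B3 B4 g f0 fr s 3 := by
  by_cases h : 2 ≤ g + f0
  · exact ⟨0, 0, 0, 0, 0, 0, 0, 0, by omega⟩
  by_cases h : 1 ≤ A1
  · exact ⟨1, 0, 0, 0, 0, 0, 0, 0, by omega⟩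
  by_cases h : 1 ≤ A2
  · exact ⟨0, 1, 0, 0, 0, 0, 0, 0, by omega⟩
  by_cases h : 2 ≤ B1
  · exact ⟨0, 0, 0, 0, 2, 0, 0, 0, by omega⟩
  by_cases h : 1 ≤ s
  · by_cases h : 1 ≤ A3
    · exact ⟨0, 0, 1, 0, 0, 0, 0, 0, by omega⟩
    omega
  by_cases h : 1 ≤ B1
  · by_cases h : 1 ≤ g + f0
    · exact ⟨0, 0, 0, 0, 1, 0, 0, 0, by omega⟩
    omega
  omega

lemma aw4 (A1 A2 A3 A4 A5 B1 B2 B3 B4 B5 g f0 fr s cs ls t : ℕ)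
    (h1 : t = 2 * (A1 + A2 + A3 + A4 + A5) + (B1 + B2 + B3 + B4 + B5) + s + cs + f0 + fr)
    (h2 : A1 + B1 + 2 * (A2 + B2) + 3 * (A3 + B3) + 4 * (A4 + B4) + 5 * (A5 + B5) + ls + g ≤ t)
    (h3 : 10 ≤ t) (h4 : cs ≤ s) (h5 : s ≤ ls) (h6 : s + fr ≤ 2)
    (h7 : 1 ≤ s ∨ fr = 0 ∨ 1 ≤ g ∨ 3 ≤ f0 + fr ∨ 1 ≤ A1 + B1) :
    AW A1 A2 A3 A4 B1 B2 B3 B4 g f0 fr s 4 := by
  by_cases h : 3 ≤ g + f0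
  · exact ⟨0, 0, 0, 0, 0, 0, 0, 0, by omega⟩
  by_cases h : 1 ≤ g + f0
  · by_cases h : 1 ≤ A1
    · exact ⟨1, 0, 0, 0, 0, 0, 0, 0, by omega⟩
    by_cases h : 1 ≤ A2
    · exact ⟨0, 1, 0, 0, 0, 0, 0, 0, by omega⟩
    by_cases h : 2 ≤ B1
    · exact ⟨0, 0, 0, 0, 2, 0, 0, 0, by omega⟩
    by_cases h : 1 ≤ A3
    · exact ⟨0, 0, 1, 0, 0, 0, 0, 0, by omega⟩
    by_cases h : 1 ≤ B1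
    · by_cases h : 2 ≤ g + f0
      · exact ⟨0, 0, 0, 0, 1, 0, 0, 0, by omega⟩
      omega
    by_cases h : 1 ≤ B2
    · exact ⟨0, 0, 0, 0, 0, 1, 0, 0, by omega⟩
    by_cases h : 1 ≤ A4
    · by_cases h : 1 ≤ s
      · exact ⟨0, 0, 0, 1, 0, 0, 0, 0, by omega⟩
      omega
    omega
  by_cases h : 2 ≤ A1
  · exact ⟨2, 0, 0, 0, 0, 0, 0, 0, by omega⟩
  by_cases h : 1 ≤ A2
  · exact ⟨0, 1, 0, 0, 0, 0, 0, 0, by omega⟩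
  by_cases h : 3 ≤ B1
  · exact ⟨0, 0, 0, 0, 3, 0, 0, 0, by omega⟩
  by_cases h : 1 ≤ B1
  · by_cases h : 1 ≤ A1
    · exact ⟨1, 0, 0, 0, 1, 0, 0, 0, by omega⟩
    by_cases h : 1 ≤ A3
    · exact ⟨0, 0, 1, 0, 0, 0, 0, 0, by omega⟩
    omega
  by_cases h : 1 ≤ A3
  · exact ⟨0, 0, 1, 0, 0, 0, 0, 0, by omega⟩
  omega

lemma aw5 (A1 A2 A3 A4 A5 B1 B2 B3 B4 B5 g f0 fr s cs ls t : ℕ)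
    (h1 : t = 2 * (A1 + A2 + A3 + A4 + A5) + (B1 + B2 + B3 + B4 + B5) + s + cs + f0 + fr)
    (h2 : A1 + B1 + 2 * (A2 + B2) + 3 * (A3 + B3) + 4 * (A4 + B4) + 5 * (A5 + B5) + ls + g ≤ t)
    (h3 : 10 ≤ t) (h4 : cs ≤ s) (h5 : s ≤ ls) (h6 : s + fr ≤ 2)
    (h7 : 1 ≤ s ∨ fr = 0 ∨ 1 ≤ g ∨ 3 ≤ f0 + fr ∨ 1 ≤ A1 + B1) :
    AW A1 A2 A3 A4 B1 B2 B3 B4 g f0 fr s 5 := by
  by_cases h : 1 ≤ A1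
  · by_cases h : 2 ≤ g + f0
    · exact ⟨1, 0, 0, 0, 0, 0, 0, 0, by omega⟩
    by_cases h : 2 ≤ A1
    · exact ⟨2, 0, 0, 0, 0, 0, 0, 0, by omega⟩
    by_cases h : 1 ≤ A2
    · exact ⟨1, 1, 0, 0, 0, 0, 0, 0, by omega⟩
    by_cases h : 2 ≤ B1
    · exact ⟨1, 0, 0, 0, 2, 0, 0, 0, by omega⟩
    by_cases h : 1 ≤ A3
    · exact ⟨0, 0, 1, 0, 0, 0, 0, 0, by omega⟩
    by_cases h : 1 ≤ B2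
    · exact ⟨1, 0, 0, 0, 0, 1, 0, 0, by omega⟩
    by_cases h : 1 ≤ A4
    · exact ⟨0, 0, 0, 1, 0, 0, 0, 0, by omega⟩
    by_cases h : 1 ≤ B1
    · by_cases h : 1 ≤ g + f0
      · exact ⟨1, 0, 0, 0, 1, 0, 0, 0, by omega⟩
      omega
    omega
  by_cases h : 4 ≤ g + f0
  · exact ⟨0, 0, 0, 0, 0, 0, 0, 0, by omega⟩
  by_cases h : 1 ≤ A2
  · by_cases h : 1 ≤ g + f0
    · exact ⟨0, 1, 0, 0, 0, 0, 0, 0, by omega⟩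
    by_cases h : 1 ≤ B1
    · exact ⟨0, 1, 0, 0, 1, 0, 0, 0, by omega⟩
    by_cases h : 2 ≤ A2
    · exact ⟨0, 2, 0, 0, 0, 0, 0, 0, by omega⟩
    by_cases h : 1 ≤ A3
    · exact ⟨0, 0, 1, 0, 0, 0, 0, 0, by omega⟩
    omega
  by_cases h : 2 ≤ B1
  · by_cases h : 2 ≤ g + f0
    · exact ⟨0, 0, 0, 0, 2, 0, 0, 0, by omega⟩
    by_cases h : 4 ≤ B1
    · exact ⟨0, 0, 0, 0, 4, 0, 0, 0, by omega⟩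
    by_cases h : 1 ≤ A3
    · exact ⟨0, 0, 1, 0, 0, 0, 0, 0, by omega⟩
    by_cases h : 1 ≤ B2
    · exact ⟨0, 0, 0, 0, 2, 1, 0, 0, by omega⟩
    by_cases h : 3 ≤ B1
    · by_cases h : 1 ≤ g + f0
      · exact ⟨0, 0, 0, 0, 3, 0, 0, 0, by omega⟩
      omega
    omega
  by_cases h : 1 ≤ A3
  · exact ⟨0, 0, 1, 0, 0, 0, 0, 0, by omega⟩
  by_cases h : 1 ≤ B2
  · by_cases h : 2 ≤ g + f0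
    · exact ⟨0, 0, 0, 0, 0, 1, 0, 0, by omega⟩
    omega
  by_cases h : 1 ≤ A4
  · exact ⟨0, 0, 0, 1, 0, 0, 0, 0, by omega⟩
  by_cases h : 1 ≤ B3
  · by_cases h : 1 ≤ g + f0
    · exact ⟨0, 0, 0, 0, 0, 0, 1, 0, by omega⟩
    omega
  by_cases h : 1 ≤ B1
  · by_cases h : 3 ≤ g + f0
    · exact ⟨0, 0, 0, 0, 1, 0, 0, 0, by omega⟩
    omega
  omega

lemma aw6 (A1 A2 A3 A4 A5 B1 B2 B3 B4 B5 g f0 fr s cs ls t : ℕ)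
    (h1 : t = 2 * (A1 + A2 + A3 + A4 + A5) + (B1 + B2 + B3 + B4 + B5) + s + cs + f0 + fr)
    (h2 : A1 + B1 + 2 * (A2 + B2) + 3 * (A3 + B3) + 4 * (A4 + B4) + 5 * (A5 + B5) + ls + g ≤ t)
    (h3 : 10 ≤ t) (h4 : cs ≤ s) (h5 : s ≤ ls) (h6 : s + fr ≤ 2)
    (h7 : g = 0) (h8 : 1 ≤ f0) (h9 : f0 ≤ 2) (h10 : fr = 0) (h11 : A1 + B1 = 0)
    (h12 : 2 * s ≤ ls) :
    AW A1 A2 A3 A4 B1 B2 B3 B4 g f0 fr s 6 := by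
  by_cases h : 2 ≤ A2
  · exact ⟨0, 2, 0, 0, 0, 0, 0, 0, by omega⟩
  by_cases h : 1 ≤ A2
  · by_cases h : 2 ≤ g + f0
    · exact ⟨0, 1, 0, 0, 0, 0, 0, 0, by omega⟩
    omega
  by_cases h : 2 ≤ A3
  · exact ⟨0, 0, 2, 0, 0, 0, 0, 0, by omega⟩
  omega

end Vale.Agent.P048
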