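import Vale.Agent.P048.ExList

set_option maxRecDepth 100000

namespace Vale.Agent.P048

theorem fin3_0 : finB exList 3 0 = true := by decide +kernel

theorem fin3_1 : finB exList 3 1 = true := by decide +kernel

theorem fin3_2 : finB exList 3 2 = true := by decide +kernel

theorem fin3_3 : finB exList 3 3 = true := by decide +kernel

theorem fin4_0 : finB exList 4 0 = true := by decide +kernel

theorem fin4_1 : finB exList 4 1 = true := by decide +kernel

theorem fin4_2 : finB exList 4 2 = true := by decide +kernel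

theorem fin4_3 : finB exList 4 3 = true := by decide +kernel

theorem fin4_4 : finB exList 4 4 = true := by decide +kernel

theorem fin5_0 : finB exList 5 0 = true := by decide +kernel

theorem fin5_1 : finB exList 5 1 = true := by decide +kernel

theorem fin5_2 : finB exList 5 2 = true := by decide +kernel

theorem fin5_3 : finB exList 5 3 = true := by decide +kernel

theorem fin5_4 : finB exList 5 4 = true := by decide +kernel

theorem fin5_5 : finB exList 5 5 = true := by decide +kernel

theorem fin6_0 : finB exList 6 0 = true := by decide +kernel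

theorem fin6_1 : finB exList 6 1 = true := by decide +kernel

theorem fin6_2 : finB exList 6 2 = true := by decide +kernel

theorem fin6_3 : finB exList 6 3 = true := by decide +kernel

theorem fin6_4 : finB exList 6 4 = true := by decide +kernel

theorem fin6_5 : finB exList 6 5 = true := by decide +kernel

theorem fin6_6 : finB exList 6 6 = true := by decide +kernel

theorem fin7_0 : finB exList 7 0 = true := by decide +kernel

theorem fin7_1 : finB exList 7 1 = true := by decide +kernel

theorem fin7_2 : finB exList 7 2 = true := by decide +kernel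

theorem fin7_3 : finB exList 7 3 = true := by decide +kernel

theorem fin7_4_0_0 : finC 7 4 0 0 = true := by decide +kernel
theorem fin7_4_0_1 : finC 7 4 0 1 = true := by decide +kernel
theorem fin7_4_0_2 : finC 7 4 0 2 = true := by decide +kernel
theorem fin7_4_0_3 : finC 7 4 0 3 = true := by decide +kernel
theorem fin7_4_0_4 : finC 7 4 0 4 = true := by decide +kernel
theorem fin7_4_1_0 : finC 7 4 1 0 = true := by decide +kernel
theorem fin7_4_1_1 : finC 7 4 1 1 = true := by decide +kernel
theorem fin7_4_1_2 : finC 7 4 1 2 = true := by decide +kernel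
theorem fin7_4_1_3 : finC 7 4 1 3 = true := by decide +kernel
theorem fin7_4_2_0 : finC 7 4 2 0 = true := by decide +kernel
theorem fin7_4_2_1 : finC 7 4 2 1 = true := by decide +kernel
theorem fin7_4_2_2 : finC 7 4 2 2 = true := by decide +kernel
theorem fin7_4_3_0 : finC 7 4 3 0 = true := by decide +kernel
theorem fin7_4_3_1 : finC 7 4 3 1 = true := by decide +kernel
theorem fin7_4_4_0 : finC 7 4 4 0 = true := by decide +kernel

theorem fin7_4 : finB exList 7 4 = true := by
  refine fin_of _ _ (by omega) (fun a ha b hb => ?_)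
  interval_cases a <;> simp only [Nat.reduceSub] at hb <;> interval_cases b
  · exact fin7_4_0_0
  · exact fin7_4_0_1
  · exact fin7_4_0_2
  · exact fin7_4_0_3
  · exact fin7_4_0_4
  · exact fin7_4_1_0
  · exact fin7_4_1_1
  · exact fin7_4_1_2
  · exact fin7_4_1_3
  · exact fin7_4_2_0
  · exact fin7_4_2_1
  · exact fin7_4_2_2
  · exact fin7_4_3_0
  · exact fin7_4_3_1
  · exact fin7_4_4_0

theorem fin7_5_0_0 : finC 7 5 0 0 = true := by decide +kernel
theorem fin7_5_0_1 : finC 7 5 0 1 = true := by decide +kernel
theorem fin7_5_0_2 : finC 7 5 0 2 = true := by decide +kernel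
theorem fin7_5_0_3 : finC 7 5 0 3 = true := by decide +kernel
theorem fin7_5_0_4 : finC 7 5 0 4 = true := by decide +kernel
theorem fin7_5_0_5 : finC 7 5 0 5 = true := by decide +kernel
theorem fin7_5_1_0 : finC 7 5 1 0 = true := by decide +kernel
theorem fin7_5_1_1 : finC 7 5 1 1 = true := by decide +kernel
theorem fin7_5_1_2 : finC 7 5 1 2 = true := by decide +kernel
theorem fin7_5_1_3 : finC 7 5 1 3 = true := by decide +kernel
theorem fin7_5_1_4 : finC 7 5 1 4 = true := by decide +kernel
theorem fin7_5_2_0 : finC 7 5 2 0 = true := by decide +kernel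
theorem fin7_5_2_1 : finC 7 5 2 1 = true := by decide +kernel
theorem fin7_5_2_2 : finC 7 5 2 2 = true := by decide +kernel
theorem fin7_5_2_3 : finC 7 5 2 3 = true := by decide +kernel
theorem fin7_5_3_0 : finC 7 5 3 0 = true := by decide +kernel
theorem fin7_5_3_1 : finC 7 5 3 1 = true := by decide +kernel
theorem fin7_5_3_2 : finC 7 5 3 2 = true := by decide +kernel
theorem fin7_5_4_0 : finC 7 5 4 0 = true := by decide +kernel
theorem fin7_5_4_1 : finC 7 5 4 1 = true := by decide +kernel
theorem fin7_5_5_0 : finC 7 5 5 0 = true := by decide +kernel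

theorem fin7_5 : finB exList 7 5 = true := by
  refine fin_of _ _ (by omega) (fun a ha b hb => ?_)
  interval_cases a <;> simp only [Nat.reduceSub] at hb <;> interval_cases b
  · exact fin7_5_0_0
  · exact fin7_5_0_1
  · exact fin7_5_0_2
  · exact fin7_5_0_3
  · exact fin7_5_0_4
  · exact fin7_5_0_5
  · exact fin7_5_1_0
  · exact fin7_5_1_1
  · exact fin7_5_1_2
  · exact fin7_5_1_3
  · exact fin7_5_1_4
  · exact fin7_5_2_0
  · exact fin7_5_2_1
  · exact fin7_5_2_2
  · exact fin7_5_2_3
  · exact fin7_5_3_0
  · exact fin7_5_3_1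
  · exact fin7_5_3_2
  · exact fin7_5_4_0
  · exact fin7_5_4_1
  · exact fin7_5_5_0

theorem fin7_6_0_0 : finC 7 6 0 0 = true := by decide +kernel
theorem fin7_6_0_1 : finC 7 6 0 1 = true := by decide +kernel
theorem fin7_6_0_2 : finC 7 6 0 2 = true := by decide +kernel
theorem fin7_6_0_3 : finC 7 6 0 3 = true := by decide +kernel
theorem fin7_6_0_4 : finC 7 6 0 4 = true := by decide +kernel
theorem fin7_6_0_5 : finC 7 6 0 5 = true := by decide +kernel
theorem fin7_6_0_6 : finC 7 6 0 6 = true := by decide +kernel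
theorem fin7_6_1_0 : finC 7 6 1 0 = true := by decide +kernel
theorem fin7_6_1_1 : finC 7 6 1 1 = true := by decide +kernel
theorem fin7_6_1_2 : finC 7 6 1 2 = true := by decide +kernel
theorem fin7_6_1_3 : finC 7 6 1 3 = true := by decide +kernel
theorem fin7_6_1_4 : finC 7 6 1 4 = true := by decide +kernel
theorem fin7_6_1_5 : finC 7 6 1 5 = true := by decide +kernel
theorem fin7_6_2_0 : finC 7 6 2 0 = true := by decide +kernel
theorem fin7_6_2_1 : finC 7 6 2 1 = true := by decide +kernel
theorem fin7_6_2_2 : finC 7 6 2 2 = true := by decide +kernel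
theorem fin7_6_2_3 : finC 7 6 2 3 = true := by decide +kernel
theorem fin7_6_2_4 : finC 7 6 2 4 = true := by decide +kernel
theorem fin7_6_3_0 : finC 7 6 3 0 = true := by decide +kernel
theorem fin7_6_3_1 : finC 7 6 3 1 = true := by decide +kernel
theorem fin7_6_3_2 : finC 7 6 3 2 = true := by decide +kernel
theorem fin7_6_3_3 : finC 7 6 3 3 = true := by decide +kernel
theorem fin7_6_4_0 : finC 7 6 4 0 = true := by decide +kernel
theorem fin7_6_4_1 : finC 7 6 4 1 = true := by decide +kernel
theorem fin7_6_4_2 : finC 7 6 4 2 = true := by decide +kernel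
theorem fin7_6_5_0 : finC 7 6 5 0 = true := by decide +kernel
theorem fin7_6_5_1 : finC 7 6 5 1 = true := by decide +kernel
theorem fin7_6_6_0 : finC 7 6 6 0 = true := by decide +kernel

theorem fin7_6 : finB exList 7 6 = true := by
  refine fin_of _ _ (by omega) (fun a ha b hb => ?_)
  interval_cases a <;> simp only [Nat.reduceSub] at hb <;> interval_cases b
  · exact fin7_6_0_0
  · exact fin7_6_0_1
  · exact fin7_6_0_2
  · exact fin7_6_0_3
  · exact fin7_6_0_4
  · exact fin7_6_0_5
  · exact fin7_6_0_6
  · exact fin7_6_1_0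
  · exact fin7_6_1_1
  · exact fin7_6_1_2
  · exact fin7_6_1_3
  · exact fin7_6_1_4
  · exact fin7_6_1_5
  · exact fin7_6_2_0
  · exact fin7_6_2_1
  · exact fin7_6_2_2
  · exact fin7_6_2_3
  · exact fin7_6_2_4
  · exact fin7_6_3_0
  · exact fin7_6_3_1
  · exact fin7_6_3_2
  · exact fin7_6_3_3
  · exact fin7_6_4_0
  · exact fin7_6_4_1
  · exact fin7_6_4_2
  · exact fin7_6_5_0
  · exact fin7_6_5_1
  · exact fin7_6_6_0

theorem fin7_7_0_0 : finC 7 7 0 0 = true := by decide +kernel
theorem fin7_7_0_1 : finC 7 7 0 1 = true := by decide +kernel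
theorem fin7_7_0_2 : finC 7 7 0 2 = true := by decide +kernel
theorem fin7_7_0_3 : finC 7 7 0 3 = true := by decide +kernel
theorem fin7_7_0_4 : finC 7 7 0 4 = true := by decide +kernel
theorem fin7_7_0_5 : finC 7 7 0 5 = true := by decide +kernel
theorem fin7_7_0_6 : finC 7 7 0 6 = true := by decide +kernel
theorem fin7_7_0_7 : finC 7 7 0 7 = true := by decide +kernel
theorem fin7_7_1_0 : finC 7 7 1 0 = true := by decide +kernel
theorem fin7_7_1_1 : finC 7 7 1 1 = true := by decide +kernel
theorem fin7_7_1_2 : finC 7 7 1 2 = true := by decide +kernel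
theorem fin7_7_1_3 : finC 7 7 1 3 = true := by decide +kernel
theorem fin7_7_1_4 : finC 7 7 1 4 = true := by decide +kernel
theorem fin7_7_1_5 : finC 7 7 1 5 = true := by decide +kernel
theorem fin7_7_1_6 : finC 7 7 1 6 = true := by decide +kernel
theorem fin7_7_2_0 : finC 7 7 2 0 = true := by decide +kernel
theorem fin7_7_2_1 : finC 7 7 2 1 = true := by decide +kernel
theorem fin7_7_2_2 : finC 7 7 2 2 = true := by decide +kernel
theorem fin7_7_2_3 : finC 7 7 2 3 = true := by decide +kernel
theorem fin7_7_2_4 : finC 7 7 2 4 = true := by decide +kernel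
theorem fin7_7_2_5 : finC 7 7 2 5 = true := by decide +kernel
theorem fin7_7_3_0 : finC 7 7 3 0 = true := by decide +kernel
theorem fin7_7_3_1 : finC 7 7 3 1 = true := by decide +kernel
theorem fin7_7_3_2 : finC 7 7 3 2 = true := by decide +kernel
theorem fin7_7_3_3 : finC 7 7 3 3 = true := by decide +kernel
theorem fin7_7_3_4 : finC 7 7 3 4 = true := by decide +kernel
theorem fin7_7_4_0 : finC 7 7 4 0 = true := by decide +kernel
theorem fin7_7_4_1 : finC 7 7 4 1 = true := by decide +kernel
theorem fin7_7_4_2 : finC 7 7 4 2 = true := by decide +kernel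
theorem fin7_7_4_3 : finC 7 7 4 3 = true := by decide +kernel
theorem fin7_7_5_0 : finC 7 7 5 0 = true := by decide +kernel
theorem fin7_7_5_1 : finC 7 7 5 1 = true := by decide +kernel
theorem fin7_7_5_2 : finC 7 7 5 2 = true := by decide +kernel
theorem fin7_7_6_0 : finC 7 7 6 0 = true := by decide +kernel
theorem fin7_7_6_1 : finC 7 7 6 1 = true := by decide +kernel
theorem fin7_7_7_0 : finC 7 7 7 0 = true := by decide +kernel

theorem fin7_7 : finB exList 7 7 = true := by
  refine fin_of _ _ (by omega) (fun a ha b hb => ?_)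
  interval_cases a <;> simp only [Nat.reduceSub] at hb <;> interval_cases b
  · exact fin7_7_0_0
  · exact fin7_7_0_1
  · exact fin7_7_0_2
  · exact fin7_7_0_3
  · exact fin7_7_0_4
  · exact fin7_7_0_5
  · exact fin7_7_0_6
  · exact fin7_7_0_7
  · exact fin7_7_1_0
  · exact fin7_7_1_1
  · exact fin7_7_1_2
  · exact fin7_7_1_3
  · exact fin7_7_1_4
  · exact fin7_7_1_5
  · exact fin7_7_1_6
  · exact fin7_7_2_0
  · exact fin7_7_2_1
  · exact fin7_7_2_2
  · exact fin7_7_2_3
  · exact fin7_7_2_4
  · exact fin7_7_2_5
  · exact fin7_7_3_0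
  · exact fin7_7_3_1
  · exact fin7_7_3_2
  · exact fin7_7_3_3
  · exact fin7_7_3_4
  · exact fin7_7_4_0
  · exact fin7_7_4_1
  · exact fin7_7_4_2
  · exact fin7_7_4_3
  · exact fin7_7_5_0
  · exact fin7_7_5_1
  · exact fin7_7_5_2
  · exact fin7_7_6_0
  · exact fin7_7_6_1
  · exact fin7_7_7_0

end Vale.Agent.P048
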