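import Vale.Agent.P048.ExList

set_option maxRecDepth 100000

namespace Vale.Agent.P048

theorem fin9_0 : finB exList 9 0 = true := by decide +kernel

theorem fin9_1 : finB exList 9 1 = true := by decide +kernel

theorem fin9_2 : finB exList 9 2 = true := by decide +kernel

theorem fin9_3 : finB exList 9 3 = true := by decide +kernel

theorem fin9_4_0_0 : finC 9 4 0 0 = true := by decide +kernel
theorem fin9_4_0_1 : finC 9 4 0 1 = true := by decide +kernel
theorem fin9_4_0_2 : finC 9 4 0 2 = true := by decide +kernel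
theorem fin9_4_0_3 : finC 9 4 0 3 = true := by decide +kernel
theorem fin9_4_0_4 : finC 9 4 0 4 = true := by decide +kernel
theorem fin9_4_1_0 : finC 9 4 1 0 = true := by decide +kernel
theorem fin9_4_1_1 : finC 9 4 1 1 = true := by decide +kernel
theorem fin9_4_1_2 : finC 9 4 1 2 = true := by decide +kernel
theorem fin9_4_1_3 : finC 9 4 1 3 = true := by decide +kernel
theorem fin9_4_2_0 : finC 9 4 2 0 = true := by decide +kernel
theorem fin9_4_2_1 : finC 9 4 2 1 = true := by decide +kernel
theorem fin9_4_2_2 : finC 9 4 2 2 = true := by decide +kernel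
theorem fin9_4_3_0 : finC 9 4 3 0 = true := by decide +kernel
theorem fin9_4_3_1 : finC 9 4 3 1 = true := by decide +kernel
theorem fin9_4_4_0 : finC 9 4 4 0 = true := by decide +kernel

theorem fin9_4 : finB exList 9 4 = true := by
  refine fin_of _ _ (by omega) (fun a ha b hb => ?_)
  interval_cases a <;> simp only [Nat.reduceSub] at hb <;> interval_cases b
  · exact fin9_4_0_0
  · exact fin9_4_0_1
  · exact fin9_4_0_2
  · exact fin9_4_0_3
  · exact fin9_4_0_4
  · exact fin9_4_1_0
  · exact fin9_4_1_1
  · exact fin9_4_1_2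
  · exact fin9_4_1_3
  · exact fin9_4_2_0
  · exact fin9_4_2_1
  · exact fin9_4_2_2
  · exact fin9_4_3_0
  · exact fin9_4_3_1
  · exact fin9_4_4_0

theorem fin9_5_0_0 : finC 9 5 0 0 = true := by decide +kernel
theorem fin9_5_0_1 : finC 9 5 0 1 = true := by decide +kernel
theorem fin9_5_0_2 : finC 9 5 0 2 = true := by decide +kernel
theorem fin9_5_0_3 : finC 9 5 0 3 = true := by decide +kernel
theorem fin9_5_0_4 : finC 9 5 0 4 = true := by decide +kernel
theorem fin9_5_0_5 : finC 9 5 0 5 = true := by decide +kernel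
theorem fin9_5_1_0 : finC 9 5 1 0 = true := by decide +kernel
theorem fin9_5_1_1 : finC 9 5 1 1 = true := by decide +kernel
theorem fin9_5_1_2 : finC 9 5 1 2 = true := by decide +kernel
theorem fin9_5_1_3 : finC 9 5 1 3 = true := by decide +kernel
theorem fin9_5_1_4 : finC 9 5 1 4 = true := by decide +kernel
theorem fin9_5_2_0 : finC 9 5 2 0 = true := by decide +kernel
theorem fin9_5_2_1 : finC 9 5 2 1 = true := by decide +kernel
theorem fin9_5_2_2 : finC 9 5 2 2 = true := by decide +kernel
theorem fin9_5_2_3 : finC 9 5 2 3 = true := by decide +kernel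
theorem fin9_5_3_0 : finC 9 5 3 0 = true := by decide +kernel
theorem fin9_5_3_1 : finC 9 5 3 1 = true := by decide +kernel
theorem fin9_5_3_2 : finC 9 5 3 2 = true := by decide +kernel
theorem fin9_5_4_0 : finC 9 5 4 0 = true := by decide +kernel
theorem fin9_5_4_1 : finC 9 5 4 1 = true := by decide +kernel
theorem fin9_5_5_0 : finC 9 5 5 0 = true := by decide +kernel

theorem fin9_5 : finB exList 9 5 = true := by
  refine fin_of _ _ (by omega) (fun a ha b hb => ?_)
  interval_cases a <;> simp only [Nat.reduceSub] at hb <;> interval_cases b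
  · exact fin9_5_0_0
  · exact fin9_5_0_1
  · exact fin9_5_0_2
  · exact fin9_5_0_3
  · exact fin9_5_0_4
  · exact fin9_5_0_5
  · exact fin9_5_1_0
  · exact fin9_5_1_1
  · exact fin9_5_1_2
  · exact fin9_5_1_3
  · exact fin9_5_1_4
  · exact fin9_5_2_0
  · exact fin9_5_2_1
  · exact fin9_5_2_2
  · exact fin9_5_2_3
  · exact fin9_5_3_0
  · exact fin9_5_3_1
  · exact fin9_5_3_2
  · exact fin9_5_4_0
  · exact fin9_5_4_1
  · exact fin9_5_5_0

end Vale.Agent.P048
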