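import Vale.Agent.P048.ExList

set_option maxRecDepth 100000

namespace Vale.Agent.P048

theorem fin9_8_0_0 : finC 9 8 0 0 = true := by decide +kernel
theorem fin9_8_0_1 : finC 9 8 0 1 = true := by decide +kernel
theorem fin9_8_0_2 : finC 9 8 0 2 = true := by decide +kernel
theorem fin9_8_0_3 : finC 9 8 0 3 = true := by decide +kernel
theorem fin9_8_0_4 : finC 9 8 0 4 = true := by decide +kernel
theorem fin9_8_0_5 : finC 9 8 0 5 = true := by decide +kernel
theorem fin9_8_0_6 : finC 9 8 0 6 = true := by decide +kernel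
theorem fin9_8_0_7 : finC 9 8 0 7 = true := by decide +kernel
theorem fin9_8_0_8 : finC 9 8 0 8 = true := by decide +kernel
theorem fin9_8_1_0 : finC 9 8 1 0 = true := by decide +kernel
theorem fin9_8_1_1 : finC 9 8 1 1 = true := by decide +kernel
theorem fin9_8_1_2 : finC 9 8 1 2 = true := by decide +kernel
theorem fin9_8_1_3 : finC 9 8 1 3 = true := by decide +kernel
theorem fin9_8_1_4 : finC 9 8 1 4 = true := by decide +kernel
theorem fin9_8_1_5 : finC 9 8 1 5 = true := by decide +kernel
theorem fin9_8_1_6 : finC 9 8 1 6 = true := by decide +kernel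
theorem fin9_8_1_7 : finC 9 8 1 7 = true := by decide +kernel
theorem fin9_8_2_0 : finC 9 8 2 0 = true := by decide +kernel
theorem fin9_8_2_1 : finC 9 8 2 1 = true := by decide +kernel
theorem fin9_8_2_2 : finC 9 8 2 2 = true := by decide +kernel
theorem fin9_8_2_3 : finC 9 8 2 3 = true := by decide +kernel
theorem fin9_8_2_4 : finC 9 8 2 4 = true := by decide +kernel
theorem fin9_8_2_5 : finC 9 8 2 5 = true := by decide +kernel
theorem fin9_8_2_6 : finC 9 8 2 6 = true := by decide +kernel
theorem fin9_8_3_0 : finC 9 8 3 0 = true := by decide +kernel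
theorem fin9_8_3_1 : finC 9 8 3 1 = true := by decide +kernel
theorem fin9_8_3_2 : finC 9 8 3 2 = true := by decide +kernel
theorem fin9_8_3_3 : finC 9 8 3 3 = true := by decide +kernel
theorem fin9_8_3_4 : finC 9 8 3 4 = true := by decide +kernel
theorem fin9_8_3_5 : finC 9 8 3 5 = true := by decide +kernel
theorem fin9_8_4_0 : finC 9 8 4 0 = true := by decide +kernel
theorem fin9_8_4_1 : finC 9 8 4 1 = true := by decide +kernel
theorem fin9_8_4_2 : finC 9 8 4 2 = true := by decide +kernel
theorem fin9_8_4_3 : finC 9 8 4 3 = true := by decide +kernel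
theorem fin9_8_4_4 : finC 9 8 4 4 = true := by decide +kernel
theorem fin9_8_5_0 : finC 9 8 5 0 = true := by decide +kernel
theorem fin9_8_5_1 : finC 9 8 5 1 = true := by decide +kernel
theorem fin9_8_5_2 : finC 9 8 5 2 = true := by decide +kernel
theorem fin9_8_5_3 : finC 9 8 5 3 = true := by decide +kernel
theorem fin9_8_6_0 : finC 9 8 6 0 = true := by decide +kernel
theorem fin9_8_6_1 : finC 9 8 6 1 = true := by decide +kernel
theorem fin9_8_6_2 : finC 9 8 6 2 = true := by decide +kernel
theorem fin9_8_7_0 : finC 9 8 7 0 = true := by decide +kernel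
theorem fin9_8_7_1 : finC 9 8 7 1 = true := by decide +kernel
theorem fin9_8_8_0 : finC 9 8 8 0 = true := by decide +kernel

theorem fin9_8 : finB exList 9 8 = true := by
  refine fin_of _ _ (by omega) (fun a ha b hb => ?_)
  interval_cases a <;> simp only [Nat.reduceSub] at hb <;> interval_cases b
  · exact fin9_8_0_0
  · exact fin9_8_0_1
  · exact fin9_8_0_2
  · exact fin9_8_0_3
  · exact fin9_8_0_4
  · exact fin9_8_0_5
  · exact fin9_8_0_6
  · exact fin9_8_0_7
  · exact fin9_8_0_8
  · exact fin9_8_1_0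
  · exact fin9_8_1_1
  · exact fin9_8_1_2
  · exact fin9_8_1_3
  · exact fin9_8_1_4
  · exact fin9_8_1_5
  · exact fin9_8_1_6
  · exact fin9_8_1_7
  · exact fin9_8_2_0
  · exact fin9_8_2_1
  · exact fin9_8_2_2
  · exact fin9_8_2_3
  · exact fin9_8_2_4
  · exact fin9_8_2_5
  · exact fin9_8_2_6
  · exact fin9_8_3_0
  · exact fin9_8_3_1
  · exact fin9_8_3_2
  · exact fin9_8_3_3
  · exact fin9_8_3_4
  · exact fin9_8_3_5
  · exact fin9_8_4_0
  · exact fin9_8_4_1
  · exact fin9_8_4_2
  · exact fin9_8_4_3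
  · exact fin9_8_4_4
  · exact fin9_8_5_0
  · exact fin9_8_5_1
  · exact fin9_8_5_2
  · exact fin9_8_5_3
  · exact fin9_8_6_0
  · exact fin9_8_6_1
  · exact fin9_8_6_2
  · exact fin9_8_7_0
  · exact fin9_8_7_1
  · exact fin9_8_8_0

end Vale.Agent.P048
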