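import Vale.Agent.P048.ExList

set_option maxRecDepth 100000

namespace Vale.Agent.P048

theorem fin9_9_0_0 : finC 9 9 0 0 = true := by decide +kernel
theorem fin9_9_0_1 : finC 9 9 0 1 = true := by decide +kernel
theorem fin9_9_0_2 : finC 9 9 0 2 = true := by decide +kernel
theorem fin9_9_0_3 : finC 9 9 0 3 = true := by decide +kernel
theorem fin9_9_0_4 : finC 9 9 0 4 = true := by decide +kernel
theorem fin9_9_0_5 : finC 9 9 0 5 = true := by decide +kernel
theorem fin9_9_0_6 : finC 9 9 0 6 = true := by decide +kernel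
theorem fin9_9_0_7 : finC 9 9 0 7 = true := by decide +kernel
theorem fin9_9_0_8 : finC 9 9 0 8 = true := by decide +kernel
theorem fin9_9_0_9 : finC 9 9 0 9 = true := by decide +kernel
theorem fin9_9_1_0 : finC 9 9 1 0 = true := by decide +kernel
theorem fin9_9_1_1 : finC 9 9 1 1 = true := by decide +kernel
theorem fin9_9_1_2 : finC 9 9 1 2 = true := by decide +kernel
theorem fin9_9_1_3 : finC 9 9 1 3 = true := by decide +kernel
theorem fin9_9_1_4 : finC 9 9 1 4 = true := by decide +kernel
theorem fin9_9_1_5 : finC 9 9 1 5 = true := by decide +kernel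
theorem fin9_9_1_6 : finC 9 9 1 6 = true := by decide +kernel
theorem fin9_9_1_7 : finC 9 9 1 7 = true := by decide +kernel
theorem fin9_9_1_8 : finC 9 9 1 8 = true := by decide +kernel
theorem fin9_9_2_0 : finC 9 9 2 0 = true := by decide +kernel
theorem fin9_9_2_1 : finC 9 9 2 1 = true := by decide +kernel
theorem fin9_9_2_2 : finC 9 9 2 2 = true := by decide +kernel
theorem fin9_9_2_3 : finC 9 9 2 3 = true := by decide +kernel
theorem fin9_9_2_4 : finC 9 9 2 4 = true := by decide +kernel
theorem fin9_9_2_5 : finC 9 9 2 5 = true := by decide +kernel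
theorem fin9_9_2_6 : finC 9 9 2 6 = true := by decide +kernel
theorem fin9_9_2_7 : finC 9 9 2 7 = true := by decide +kernel
theorem fin9_9_3_0 : finC 9 9 3 0 = true := by decide +kernel
theorem fin9_9_3_1 : finC 9 9 3 1 = true := by decide +kernel
theorem fin9_9_3_2 : finC 9 9 3 2 = true := by decide +kernel
theorem fin9_9_3_3 : finC 9 9 3 3 = true := by decide +kernel
theorem fin9_9_3_4 : finC 9 9 3 4 = true := by decide +kernel
theorem fin9_9_3_5 : finC 9 9 3 5 = true := by decide +kernel
theorem fin9_9_3_6 : finC 9 9 3 6 = true := by decide +kernel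
theorem fin9_9_4_0 : finC 9 9 4 0 = true := by decide +kernel
theorem fin9_9_4_1 : finC 9 9 4 1 = true := by decide +kernel
theorem fin9_9_4_2 : finC 9 9 4 2 = true := by decide +kernel
theorem fin9_9_4_3 : finC 9 9 4 3 = true := by decide +kernel
theorem fin9_9_4_4 : finC 9 9 4 4 = true := by decide +kernel
theorem fin9_9_4_5 : finC 9 9 4 5 = true := by decide +kernel
theorem fin9_9_5_0 : finC 9 9 5 0 = true := by decide +kernel
theorem fin9_9_5_1 : finC 9 9 5 1 = true := by decide +kernel
theorem fin9_9_5_2 : finC 9 9 5 2 = true := by decide +kernel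
theorem fin9_9_5_3 : finC 9 9 5 3 = true := by decide +kernel
theorem fin9_9_5_4 : finC 9 9 5 4 = true := by decide +kernel
theorem fin9_9_6_0 : finC 9 9 6 0 = true := by decide +kernel
theorem fin9_9_6_1 : finC 9 9 6 1 = true := by decide +kernel
theorem fin9_9_6_2 : finC 9 9 6 2 = true := by decide +kernel
theorem fin9_9_6_3 : finC 9 9 6 3 = true := by decide +kernel
theorem fin9_9_7_0 : finC 9 9 7 0 = true := by decide +kernel
theorem fin9_9_7_1 : finC 9 9 7 1 = true := by decide +kernel
theorem fin9_9_7_2 : finC 9 9 7 2 = true := by decide +kernel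
theorem fin9_9_8_0 : finC 9 9 8 0 = true := by decide +kernel
theorem fin9_9_8_1 : finC 9 9 8 1 = true := by decide +kernel
theorem fin9_9_9_0 : finC 9 9 9 0 = true := by decide +kernel

theorem fin9_9 : finB exList 9 9 = true := by
  refine fin_of _ _ (by omega) (fun a ha b hb => ?_)
  interval_cases a <;> simp only [Nat.reduceSub] at hb <;> interval_cases b
  · exact fin9_9_0_0
  · exact fin9_9_0_1
  · exact fin9_9_0_2
  · exact fin9_9_0_3
  · exact fin9_9_0_4
  · exact fin9_9_0_5
  · exact fin9_9_0_6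
  · exact fin9_9_0_7
  · exact fin9_9_0_8
  · exact fin9_9_0_9
  · exact fin9_9_1_0
  · exact fin9_9_1_1
  · exact fin9_9_1_2
  · exact fin9_9_1_3
  · exact fin9_9_1_4
  · exact fin9_9_1_5
  · exact fin9_9_1_6
  · exact fin9_9_1_7
  · exact fin9_9_1_8
  · exact fin9_9_2_0
  · exact fin9_9_2_1
  · exact fin9_9_2_2
  · exact fin9_9_2_3
  · exact fin9_9_2_4
  · exact fin9_9_2_5
  · exact fin9_9_2_6
  · exact fin9_9_2_7
  · exact fin9_9_3_0
  · exact fin9_9_3_1
  · exact fin9_9_3_2
  · exact fin9_9_3_3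
  · exact fin9_9_3_4
  · exact fin9_9_3_5
  · exact fin9_9_3_6
  · exact fin9_9_4_0
  · exact fin9_9_4_1
  · exact fin9_9_4_2
  · exact fin9_9_4_3
  · exact fin9_9_4_4
  · exact fin9_9_4_5
  · exact fin9_9_5_0
  · exact fin9_9_5_1
  · exact fin9_9_5_2
  · exact fin9_9_5_3
  · exact fin9_9_5_4
  · exact fin9_9_6_0
  · exact fin9_9_6_1
  · exact fin9_9_6_2
  · exact fin9_9_6_3
  · exact fin9_9_7_0
  · exact fin9_9_7_1
  · exact fin9_9_7_2
  · exact fin9_9_8_0
  · exact fin9_9_8_1
  · exact fin9_9_9_0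

end Vale.Agent.P048
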